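import Vale.Agent.P143.Main

/-!
P143: the free uniform spanning forest is a factor of i.i.d. labels on every Cayley graph of a
finitely generated group, equivariantly under all automorphisms on every connected locally finite
graph, and by one Borel relabelling-invariant rule on coded graphs.
-/

namespace Vale.Agent.Results.P143.FUSFFactorIID

open MeasureTheory Vale.Agent.P143

universe u

theorem result :
    (∀ (Γ : Type u) [Group Γ] (S : Set Γ), S.Finite → Subgroup.closure S = ⊤ →
      (∃ H, IsExhaustion (SimpleGraph.mulCayley S) H) ∧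
      ∃ Φ : (Γ → unitInterval) → Sym2 Γ → Bool, Measurable Φ ∧
        (∀ (γ : Γ) (U : Γ → unitInterval) (e : Sym2 Γ),
          Φ (fun x => U (γ * x)) e = Φ U (e.map (γ * ·))) ∧
        IsFUSF (SimpleGraph.mulCayley S) ((labelLaw Γ).map Φ)) ∧
    (∀ (V : Type u) [Countable V] (G : SimpleGraph V), G.Connected →
      (∀ v, (G.neighborSet v).Finite) →
      (∃ H, IsExhaustion G H) ∧
      ∃ Φ : (V → unitInterval) → Sym2 V → Bool, Measurable Φ ∧
        (∀ (σ : G ≃g G) (U : V → unitInterval) (e : Sym2 V),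
          Φ (U ∘ σ) e = Φ U (e.map σ)) ∧
        IsFUSF G ((labelLaw V).map Φ)) ∧
    (∃ Φ : (Sym2 ℕ → Bool) → (ℕ → unitInterval) → Sym2 ℕ → Bool,
      Measurable (fun p : (Sym2 ℕ → Bool) × (ℕ → unitInterval) => Φ p.1 p.2) ∧
      (∀ (σ : Equiv.Perm ℕ) (A : Sym2 ℕ → Bool) (U : ℕ → unitInterval) (e : Sym2 ℕ),
        Φ (A ∘ Sym2.map σ) (U ∘ σ) e = Φ A U (e.map σ)) ∧
      ∀ G : SimpleGraph ℕ, G.Connected → (∀ v, (G.neighborSet v).Finite) →
        IsFUSF G ((labelLaw ℕ).map (Φ (edgeCode G)))) :=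
  fusf_factor_of_iid

end Vale.Agent.Results.P143.FUSFFactorIID
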